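import Crest.Agent.N250.Rm.Abs
import Crest.Agent.N250.Rm.Br
import Crest.Agent.N250.Nq.Defs
import Crest.Agent.N250.Lp.Lin
import Crest.Agent.N250.B1.Sm4
import Crest.Agent.N250.Wt.Grn

/-!
# Row 250 (helper50): `C²` size of the real data
-/

set_option autoImplicit false
open MeasureTheory Set Filter Topology
open scoped ContDiff
open Crest.GeometryTopology.MCF

noncomputable section

namespace Crest.Agent.N250.Rm

open WS Nq

section Geo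

variable {X : Type} [TopologicalSpace X] [MeasurableSpace X] {G : Geo X}

/-- weighted 2-jet bound at a point -/
structure Bd (f : G.SmC) (C : ℝ) (p : X) : Prop where
  h0 : ‖f.1 p‖ ≤ C
  h1 : ∀ a, G.ρ.1 p * ‖(G.SC.D a f).1 p‖ ≤ C
  h2 : ∀ a b, G.ρ.1 p * ‖(G.SC.D a (G.SC.D b f)).1 p‖ ≤ C

variable {f g : G.SmC} {C C' : ℝ} {p : X}

theorem Bd.mono (h : Bd f C p) (k : C ≤ C') : Bd f C' p :=
  ⟨h.h0.trans k, fun a => (h.h1 a).trans k, fun a b => (h.h2 a b).trans k⟩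

theorem rho_nn (G : Geo X) (p : X) : 0 ≤ G.ρ.1 p := zero_le_one.trans (G.one_le p)

theorem Bd.add (h : Bd f C p) (k : Bd g C' p) : Bd (f + g) (C + C') p := by
  refine ⟨(norm_add_le _ _).trans (add_le_add h.h0 k.h0), fun a => ?_, fun a b => ?_⟩
  · rw [G.dsC.add]
    refine (mul_le_mul_of_nonneg_left (norm_add_le _ _) (rho_nn G p)).trans ?_
    rw [mul_add]; exact add_le_add (h.h1 a) (k.h1 a)
  · rw [G.dsC.add, G.dsC.add]
    refine (mul_le_mul_of_nonneg_left (norm_add_le _ _) (rho_nn G p)).trans ?_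
    rw [mul_add]; exact add_le_add (h.h2 a b) (k.h2 a b)

theorem Bd.smul (h : Bd f C p) {c : ℂ} {t : ℝ} (hc : ‖c‖ ≤ t) : Bd (c • f) (t * C) p := by
  have t0 := (norm_nonneg c).trans hc
  have key : ∀ (z : ℂ) (r : ℝ), 0 ≤ r → r * ‖z‖ ≤ C → r * ‖c * z‖ ≤ t * C := fun z r hr hz => by
    rw [norm_mul, mul_left_comm]
    exact mul_le_mul hc hz (by positivity) t0
  refine ⟨?_, fun a => ?_, fun a b => ?_⟩
  · simpa using key (f.1 p) 1 zero_le_one (by simpa using h.h0)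
  · rw [G.D_smul]; exact key _ _ (rho_nn G p) (h.h1 a)
  · rw [G.D_smul, G.D_smul]; exact key _ _ (rho_nn G p) (h.h2 a b)

theorem bd_zero (p : X) : Bd (0 : G.SmC) 0 p := by
  have z : ∀ a, G.SC.D a 0 = 0 := G.dsC.D_zero
  exact ⟨by simp, fun a => by simp [z], fun a b => by simp [z]⟩

theorem Bd.sum {κ : Type} (s : Finset κ) {F : κ → G.SmC} {B : κ → ℝ} (h : ∀ i, Bd (F i) (B i) p) :
    Bd (∑ i ∈ s, F i) (∑ i ∈ s, B i) p := by
  classical
  induction s using Finset.induction_on with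
  | empty => exact bd_zero p
  | insert a s ha ih => rw [Finset.sum_insert ha, Finset.sum_insert ha]; exact (h a).add ih

theorem bd_of_cpt (f : G.SmC) {K : Set X} (hK : IsCompact K) : ∃ C, 0 ≤ C ∧ ∀ p ∈ K, Bd f C p := by
  have c : ∀ g : G.SmC, Continuous fun p => G.ρ.1 p * ‖g.1 p‖ := fun g =>
    (G.contR _).mul (G.contC g).norm
  have n : ∀ (g : G.SmC) p, 0 ≤ G.ρ.1 p * ‖g.1 p‖ := fun g p =>
    mul_nonneg (rho_nn G p) (norm_nonneg _)
  obtain ⟨C, hC⟩ := hK.exists_bound_of_continuousOn (f := fun p => ‖f.1 p‖ +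
    ∑ a, G.ρ.1 p * ‖(G.SC.D a f).1 p‖ + ∑ a, ∑ b, G.ρ.1 p * ‖(G.SC.D a (G.SC.D b f)).1 p‖)
    (((G.contC f).norm.add (continuous_finsetSum _ fun a _ => c _)).add
      (continuous_finsetSum _ fun a _ => continuous_finsetSum _ fun b _ => c _)).continuousOn
  refine ⟨|C|, abs_nonneg _, fun p hp => ?_⟩
  have h := (le_abs_self _).trans ((hC p hp).trans (le_abs_self C))
  have s1 : 0 ≤ ∑ a, G.ρ.1 p * ‖(G.SC.D a f).1 p‖ := Finset.sum_nonneg fun a _ => n _ p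
  have s2 : 0 ≤ ∑ a, ∑ b, G.ρ.1 p * ‖(G.SC.D a (G.SC.D b f)).1 p‖ :=
    Finset.sum_nonneg fun a _ => Finset.sum_nonneg fun b _ => n _ p
  refine ⟨by linarith, fun a => ?_, fun a b => ?_⟩
  · have := Finset.single_le_sum (f := fun a => G.ρ.1 p * ‖(G.SC.D a f).1 p‖)
      (fun a _ => n _ p) (Finset.mem_univ a)
    linarith [norm_nonneg (f.1 p)]
  · have := Finset.single_le_sum (f := fun b => G.ρ.1 p * ‖(G.SC.D a (G.SC.D b f)).1 p‖)
      (fun a _ => n _ p) (Finset.mem_univ b)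
    have := Finset.single_le_sum (f := fun a => ∑ b, G.ρ.1 p * ‖(G.SC.D a (G.SC.D b f)).1 p‖)
      (fun a _ => Finset.sum_nonneg fun b _ => n _ p) (Finset.mem_univ a)
    linarith [norm_nonneg (f.1 p)]

theorem bd_of_ev (h : f.1 =ᶠ[𝓝 p] (0 : G.SmC).1) : Bd f 0 p := by
  have z := bd_zero (G := G) p
  exact ⟨h.self_of_nhds ▸ z.h0, fun a => (Lp.D_ev h a).self_of_nhds ▸ z.h1 a,
    fun a b => (Lp.D_ev (Lp.D_ev h b) a).self_of_nhds ▸ z.h2 a b⟩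

theorem bd_cut {χ : G.R} (hc : HasCompactSupport (G.ζ * χ).1) (w : G.R) :
    ∃ C, 0 ≤ C ∧ ∀ p, G.ζ.1 p = 1 → Bd (G.oR (χ * w)) C p := by
  obtain ⟨C, C0, h⟩ := bd_of_cpt (G.oR (χ * w)) hc
  refine ⟨C, C0, fun p hp => ?_⟩
  by_cases hK : p ∈ tsupport (G.ζ * χ).1
  · exact h p hK
  · refine (bd_of_ev ?_).mono C0
    filter_upwards [notMem_tsupport_iff_eventuallyEq.1 hK,
      (G.contR G.ζ).continuousAt.eventually_ne (show G.ζ.1 p ≠ 0 by rw [hp]; exact one_ne_zero)]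
      with q h1 h2
    have h3 : χ.1 q = 0 := (mul_eq_zero.1 h1).resolve_left h2
    change ((χ.1 q * w.1 q : ℝ) : ℂ) = 0
    rw [h3, zero_mul, Complex.ofReal_zero]

theorem bd_sy {w : G.R} (h : G.Sy 0 w) : ∃ C, 0 ≤ C ∧ ∀ p, Bd (G.oR w) C p := by
  choose B hB using h
  have k : ∀ (l : List (Fin 3)) p, l ≠ [] →
      G.ρ.1 p * ‖(G.SC.Dw l (G.oR w)).1 p‖ ≤ |B l| := fun l p hl => by
    have r1 := G.one_le p
    rw [G.Dw_oR, G.oR_apply, Complex.norm_real, Real.norm_eq_abs]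
    have h1 : G.ρ.1 p ^ ((0 : ℤ) - l.length) ≤ G.ρ.1 p ^ (-1 : ℤ) :=
      zpow_le_zpow_right₀ r1 (by have := List.length_pos_iff.2 hl; omega)
    have h2 := (hB l p).trans ((mul_le_mul_of_nonneg_right (le_abs_self _) (by positivity)).trans
      (mul_le_mul_of_nonneg_left h1 (abs_nonneg _)))
    rw [zpow_neg_one, ← div_eq_mul_inv, le_div_iff₀ (by linarith)] at h2
    linarith
  have s1 : 0 ≤ ∑ a, |B [a]| := Finset.sum_nonneg fun a _ => abs_nonneg _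
  have s2 : 0 ≤ ∑ a, ∑ b, |B [a, b]| :=
    Finset.sum_nonneg fun a _ => Finset.sum_nonneg fun b _ => abs_nonneg _
  refine ⟨|B []| + ∑ a, |B [a]| + ∑ a, ∑ b, |B [a, b]|, by positivity, fun p => ⟨?_, fun a => ?_,
    fun a b => ?_⟩⟩
  · have := hB [] p
    simp only [List.length_nil, Nat.cast_zero, sub_self, zpow_zero, mul_one] at this
    rw [G.oR_apply, Complex.norm_real, Real.norm_eq_abs]
    exact this.trans (by linarith [le_abs_self (B [])])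
  · have := Finset.single_le_sum (f := fun a => |B [a]|) (fun a _ => abs_nonneg _)
      (Finset.mem_univ a)
    exact (k [a] p (by simp)).trans (by linarith [abs_nonneg (B [])])
  · have := Finset.single_le_sum (f := fun b => |B [a, b]|) (fun a _ => abs_nonneg _)
      (Finset.mem_univ b)
    have := Finset.single_le_sum (f := fun a => ∑ b, |B [a, b]|)
      (fun a _ => Finset.sum_nonneg fun b _ => abs_nonneg _) (Finset.mem_univ a)
    exact (k [a, b] p (by simp)).trans (by linarith [abs_nonneg (B [])])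

variable {J κ : Type} [Fintype J] [Fintype κ] {D : Dt G J κ}

omit [Fintype κ] in
theorem bd_mv (hD : D.Good) (w : Fin 3 → G.R) : ∃ C, 0 ≤ C ∧ ∀ (T : Mt J) p c, G.ζ.1 p = 1 →
    Bd (D.mv T w c) (‖T‖ * C) p := by
  choose B B0 hB using fun j d => bd_cut (hD.cχ j) (w d)
  refine ⟨∑ j, ∑ d, B j d, Finset.sum_nonneg fun j _ => Finset.sum_nonneg fun d _ => B0 j d,
    fun T p c hp => ?_⟩
  simp only [Finset.mul_sum]
  exact Bd.sum _ fun j => Bd.sum _ fun d => (hB j d p hp).smul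
    ((norm_le_pi_norm _ d).trans ((norm_le_pi_norm _ c).trans (norm_le_pi_norm T j)))

/-- `C²` size `t` at a point, linear growth allowed -/
structure Sz (f : G.SmC) (t : ℝ) (p : X) : Prop where
  h0 : ‖f.1 p‖ ≤ t * G.ρ.1 p
  h1 : ∀ a, ‖(G.SC.D a f).1 p‖ ≤ t
  h2 : ∀ a b, ‖(G.SC.D a (G.SC.D b f)).1 p‖ ≤ t

theorem Bd.sz (h : Bd f C p) : Sz f C p := by
  have r := G.one_le p
  have c0 := (norm_nonneg _).trans h.h0
  exact ⟨h.h0.trans (le_mul_of_one_le_right c0 r),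
    fun a => (le_mul_of_one_le_left (norm_nonneg _) r).trans (h.h1 a),
    fun a b => (le_mul_of_one_le_left (norm_nonneg _) r).trans (h.h2 a b)⟩

theorem Sz.mono {t t' : ℝ} (h : Sz f t p) (k : t ≤ t') : Sz f t' p :=
  ⟨h.h0.trans (mul_le_mul_of_nonneg_right k (rho_nn G p)), fun a => (h.h1 a).trans k,
    fun a b => (h.h2 a b).trans k⟩

theorem Sz.add {t t' : ℝ} (h : Sz f t p) (k : Sz g t' p) : Sz (f + g) (t + t') p := by
  refine ⟨(norm_add_le _ _).trans ((add_le_add h.h0 k.h0).trans_eq (by ring)), fun a => ?_,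
    fun a b => ?_⟩
  · rw [G.dsC.add]; exact (norm_add_le _ _).trans (add_le_add (h.h1 a) (k.h1 a))
  · rw [G.dsC.add, G.dsC.add]; exact (norm_add_le _ _).trans (add_le_add (h.h2 a b) (k.h2 a b))

theorem Sz.mul {t : ℝ} (h : Sz f t p) (k : Bd g C p) : Sz (f * g) (4 * (t * C)) p := by
  have r := G.one_le p
  have c0 := (norm_nonneg _).trans k.h0
  have t0 := (norm_nonneg _).trans (h.h1 0)
  have tc := mul_nonneg t0 c0
  have m : ∀ u v : G.SmC, ‖(u * v).1 p‖ = ‖u.1 p‖ * ‖v.1 p‖ := fun u v => norm_mul _ _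
  have ad : ∀ u v : G.SmC, ‖(u + v).1 p‖ ≤ ‖u.1 p‖ + ‖v.1 p‖ := fun u v => norm_add_le _ _
  have k0 : ∀ v : G.SmC, G.ρ.1 p * ‖v.1 p‖ ≤ C → ‖(f * v).1 p‖ ≤ t * C := fun v hv => by
    rw [m]
    refine (mul_le_mul_of_nonneg_right h.h0 (norm_nonneg _)).trans ?_
    rw [mul_assoc]; exact mul_le_mul_of_nonneg_left hv t0
  have k1 : ∀ u v : G.SmC, ‖u.1 p‖ ≤ t → ‖v.1 p‖ ≤ C → ‖(u * v).1 p‖ ≤ t * C := fun u v hu hv => by
    rw [m]; exact mul_le_mul hu hv (norm_nonneg _) t0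
  refine ⟨?_, fun a => ?_, fun a b => ?_⟩
  · rw [m]
    have := mul_le_mul h.h0 k.h0 (norm_nonneg _) (by positivity)
    nlinarith
  · rw [G.dsC.mul]
    linarith [ad (f * G.SC.D a g) (G.SC.D a f * g), k0 _ (k.h1 a), k1 _ _ (h.h1 a) k.h0]
  · rw [G.dsC.mul, G.dsC.add, G.dsC.mul, G.dsC.mul]
    refine (ad _ _).trans ((add_le_add (ad _ _) (ad _ _)).trans ?_)
    linarith [k0 _ (k.h2 a b), k1 _ _ (h.h1 a) (k.sz.h1 b), k1 _ _ (h.h1 b) (k.sz.h1 a),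
      k1 _ _ (h.h2 a b) k.h0]

omit [Fintype κ] in
/-- size of `M (x + u Z) - x` -/
theorem sz_Xh (hD : D.Good) : ∃ C, 0 < C ∧ ∀ (u : G.SmC) (T : Mt J) (t : ℝ) p, G.ζ.1 p = 1 →
    t ≤ 1 → ‖T‖ ≤ t → Sz u t p → ∀ c, Sz (D.Xh u T c - G.SC.x c) (C * t) p := by
  obtain ⟨C1, a1, h1⟩ := bd_mv hD G.S.x
  obtain ⟨C2, a2, h2⟩ := bd_mv hD D.Z
  choose B B0 hB using fun c => bd_sy (hD.symZ c)
  have s0 : 0 ≤ ∑ c, B c := Finset.sum_nonneg fun c _ => B0 c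
  refine ⟨C1 + 4 * (∑ c, B c + C2) + 1, by positivity, fun u T t p hp t1 hT hu c => ?_⟩
  have t0 := (norm_nonneg _).trans hT
  have e : D.Xh u T c - G.SC.x c = D.yy T c + u * D.VV T c := add_sub_cancel_left _ _
  rw [e]
  have v : Bd (D.VV T c) (∑ c, B c + C2) p :=
    ((hB c p).add (h2 T p c hp)).mono (add_le_add
      (Finset.single_le_sum (f := B) (fun c _ => B0 c) (Finset.mem_univ c))
      (mul_le_of_le_one_left a2 (hT.trans t1)))
  refine ((h1 T p c hp).sz.add (hu.mul v)).mono ?_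
  nlinarith [mul_le_mul_of_nonneg_right hT a1]

variable [BorelSpace X]

theorem val_le {σ : Scale G} {f : σ.AA} {s : G.R} {u : G.SmC} (e : σ.val f = G.oR s * u) (p : X) :
    |s.1 p| * ‖u.1 p‖ ≤ ‖f‖ := by
  have h : ‖(σ.val f).1 p‖ ≤ ‖f‖ := Scale.norm_val_le f p
  have e1 : (σ.val f).1 p = (s.1 p : ℂ) * u.1 p := by rw [e]; rfl
  rwa [e1, norm_mul, Complex.norm_real, Real.norm_eq_abs] at h

theorem sz_of {σ : Scale G} {u : G.SmC} {f0 : σ.AA} {f1 : Fin 3 → σ.AA} {f2 : Fin 3 → Fin 3 → σ.AA}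
    {t : ℝ} (hp : G.ζ.1 p = 1) (e0 : σ.val f0 = G.oR (G.ζ * G.ι) * u)
    (e1 : ∀ a, σ.val (f1 a) = G.oR G.ζ * G.SC.D a u)
    (e2 : ∀ a b, σ.val (f2 a b) = G.oR (G.ζ * G.ρ) * G.SC.D a (G.SC.D b u))
    (h0 : ‖f0‖ ≤ t) (h1 : ∀ a, ‖f1 a‖ ≤ t) (h2 : ∀ a b, ‖f2 a b‖ ≤ t) : Sz u t p := by
  have r := G.one_le p
  refine ⟨?_, fun a => ?_, fun a b => ?_⟩
  · have h := (val_le e0 p).trans h0
    have e : G.ρ.1 p * G.ι.1 p = 1 := congrFun (congrArg Subtype.val G.ρι) p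
    have e2 : (G.ζ * G.ι).1 p = (G.ρ.1 p)⁻¹ := by
      change G.ζ.1 p * G.ι.1 p = _
      rw [hp, one_mul]; exact eq_inv_of_mul_eq_one_right e
    rwa [e2, abs_of_pos (by positivity), inv_mul_le_iff₀ (by positivity), mul_comm] at h
  · have h := (val_le (e1 a) p).trans (h1 a)
    rwa [hp, abs_one, one_mul] at h
  · have h := (val_le (e2 a b) p).trans (h2 a b)
    have e2 : (G.ζ * G.ρ).1 p = G.ρ.1 p := by
      change G.ζ.1 p * G.ρ.1 p = _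
      rw [hp, one_mul]
    rw [e2, abs_of_pos (by positivity)] at h
    exact (le_mul_of_one_le_left (norm_nonneg _) r).trans h

theorem clm_bd {V W ι : Type} [Fintype ι] [NormedAddCommGroup V] [NormedSpace ℂ V]
    [NormedAddCommGroup W] [NormedSpace ℂ W] (L : ι → V →L[ℂ] W) :
    ∃ C, 0 < C ∧ ∀ i v, ‖L i v‖ ≤ C * ‖v‖ :=
  ⟨‖L‖ + 1, by positivity, fun i v => ((L i).le_opNorm v).trans
    (mul_le_mul_of_nonneg_right (by linarith [norm_le_pi_norm L i]) (norm_nonneg _))⟩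

/-- size of `w` from the norm of `ξ` -/
theorem sz_wG {σ : Scale G} {ψ : κ → G.R} (Je : σ.Jets ψ) : ∃ C, 0 < C ∧ ∀ ξ p, G.ζ.1 p = 1 →
    Sz (σ.wG ψ ξ) (C * ‖ξ‖) p := by
  obtain ⟨C0, a0, h0⟩ := clm_bd fun _ : Unit => Je.J0
  obtain ⟨C1, a1, h1⟩ := clm_bd Je.J1
  obtain ⟨C2, a2, h2⟩ := clm_bd fun a : Fin 3 × Fin 3 => Je.J2 a.1 a.2
  refine ⟨C0 + C1 + C2, by positivity, fun ξ p hp => ?_⟩
  have n := norm_nonneg ξ
  exact sz_of hp (Je.val0 ξ) (fun a => Je.val1 a ξ) (fun a b => Je.val2 a b ξ)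
    ((h0 () ξ).trans (mul_le_mul_of_nonneg_right (by linarith) n))
    (fun a => (h1 a ξ).trans (mul_le_mul_of_nonneg_right (by linarith) n))
    fun a b => (h2 (a, b) ξ).trans (mul_le_mul_of_nonneg_right (by linarith) n)

end Geo

section Real

variable {S : Mv} {P : Wr.Prm S}

theorem zeta_core {b : ℝ} (hb : b < P.a') {q : ST} (hq : q ∈ S.M) (hc : q ∈ Fm.Core P.e b) :
    P.geo.ζ.1 ⟨q.1, mem_sl P hq⟩ = 1 :=
  Wr.zeta_one P.hab fun j =>
    (Wr.tube_or_off' P.shr.st P.ha' hb hq j).resolve_left (hc j)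

variable {Y : Fin 3 → P.geo.SmC} {t : ℝ} {q : ST}

theorem rX_sub (hq : q ∈ S.M) (c : Fin 3) :
    (rX P Y q - q.1) c = rf P (Y c - P.geo.SC.x c) q := by
  have h1 := rX_apply Y ⟨q.1, mem_sl P hq⟩ q.2 c
  have h2 := rf_apply (Y c - P.geo.SC.x c) ⟨q.1, mem_sl P hq⟩ q.2
  rw [PiLp.sub_apply, h1, h2]
  exact (Complex.sub_re _ ((q.1 c : ℝ) : ℂ)).symm

variable (hq : q ∈ S.M) (h : ∀ c, Sz (Y c - P.geo.SC.x c) t (⟨q.1, mem_sl P hq⟩ : S.sl 0))
include h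

theorem core0 : ‖rX P Y q - q.1‖ ≤ 3 * t * (1 + ‖q.1‖) := by
  have t0 := (norm_nonneg _).trans ((h 0).h1 0)
  have r : P.geo.ρ.1 ⟨q.1, mem_sl P hq⟩ ≤ 1 + ‖q.1‖ :=
    (Wr.rho_le_rho0 _ _).trans (Wr.rho0_le _)
  have k : ∀ c, |(rX P Y q - q.1) c| ≤ t * (1 + ‖q.1‖) := fun c => by
    rw [rX_sub hq, rf_apply _ ⟨q.1, mem_sl P hq⟩ q.2]
    exact (Complex.abs_re_le_norm _).trans ((h c).h0.trans (mul_le_mul_of_nonneg_left r t0))
  have b0 : 0 ≤ t * (1 + ‖q.1‖) := by positivity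
  rw [EuclideanSpace.norm_eq]
  refine Real.sqrt_le_iff.2 ⟨by positivity, ?_⟩
  simp only [Fin.sum_univ_three, Real.norm_eq_abs]
  nlinarith [pow_le_pow_left₀ (abs_nonneg _) (k 0) 2, pow_le_pow_left₀ (abs_nonneg _) (k 1) 2,
    pow_le_pow_left₀ (abs_nonneg _) (k 2) 2, sq_nonneg (t * (1 + ‖q.1‖))]

theorem core1 (i c : Fin 3) : |S.D i (fun y => (rX P Y y - y.1) c) q| ≤ t := by
  rw [Mv.D_congr' hq fun y hy => rX_sub hy c, D_rf _ i ⟨q.1, mem_sl P hq⟩ q.2]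
  exact (Complex.abs_re_le_norm _).trans ((h c).h1 i)

theorem core2 (i k c : Fin 3) : |S.D i (S.D k fun y => (rX P Y y - y.1) c) q| ≤ t := by
  rw [Mv.D_congr' hq fun y hy => Mv.D_congr' hy (fun y hy => rX_sub hy c) k,
    DD_rf _ i k ⟨q.1, mem_sl P hq⟩ q.2]
  exact (Complex.abs_re_le_norm _).trans ((h c).h2 i k)

end Real

section End

open B1 Po

/-- the jet of the end `j` of `S` in the order of `vj` -/
def jS {S : Mv} (e : Ends S) (j : Fin e.p) (q : ℝ × ℝ) (i : Fin 6) : ℂ :=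
  (![Fm.vS e j q, d1 (Fm.vS e j) q, d1 (d1 (Fm.vS e j)) q, d2 (Fm.vS e j) q,
    d1 (d2 (Fm.vS e j)) q, d2 (d2 (Fm.vS e j)) q] i : ℝ)

theorem cd_vS {S : Mv} (e : Ends S) (j : Fin e.p) {q : ℝ × ℝ} (hq : e.R < q.1) :
    ContDiffAt ℝ ∞ (Fm.vS e j) q :=
  (((e.sm j).contDiffAt ((isOpen_lt continuous_const continuous_fst).mem_nhds hq)).pow 2).div_const 2

theorem j2_sub {u v : ℝ × ℝ → ℝ} {q : ℝ × ℝ} {t : ℝ} (hu : ContDiffAt ℝ 2 u q)
    (hv : ContDiffAt ℝ 2 v q) (h0 : |u q - v q| ≤ t) (h1 : |d1 u q - d1 v q| ≤ t)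
    (h2 : |d2 u q - d2 v q| ≤ t) (h11 : |d1 (d1 u) q - d1 (d1 v) q| ≤ t)
    (h12 : |d1 (d2 u) q - d1 (d2 v) q| ≤ t) (h22 : |d2 (d2 u) q - d2 (d2 v) q| ≤ t) :
    Fm.J2le (fun y => u y - v y) t q := by
  have h := hu.prodMk hv
  have hd := h.differentiableAt (by simp)
  let A := ContinuousLinearMap.fst ℝ ℝ ℝ
  let B := ContinuousLinearMap.snd ℝ ℝ ℝ
  have k1 : ∀ w, fderiv ℝ (fun y => u y - v y) q w = fderiv ℝ u q w - fderiv ℝ v q w := fun w =>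
    (Lp.fd_clm (A - B) hd w).trans
      (congrArg₂ (· - ·) (Lp.fd_clm A hd w).symm (Lp.fd_clm B hd w).symm)
  have k2 : ∀ w' w, fderiv ℝ (fun z => fderiv ℝ (fun y => u y - v y) z w) q w' =
      fderiv ℝ (fun z => fderiv ℝ u z w) q w' - fderiv ℝ (fun z => fderiv ℝ v z w) q w' :=
    fun w' w => (Lp.fd2_clm (A - B) h w' w).trans
      (congrArg₂ (· - ·) (Lp.fd2_clm A h w' w).symm (Lp.fd2_clm B h w' w).symm)
  exact ⟨h0, (congrArg abs (k1 _)).trans_le h1, (congrArg abs (k1 _)).trans_le h2,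
    (congrArg abs (k2 _ _)).trans_le h11, (congrArg abs (k2 _ _)).trans_le h12,
    (congrArg abs (k2 _ _)).trans_le h22⟩

/-- pointwise closeness of the six jets gives `J2le` -/
theorem j2_of_vj {S : Mv} (e : Ends S) (j : Fin e.p) {ℓ : Ell} {R X t : ℝ} {a : ℂ} {J : Jt ℓ}
    (hX : R + 2 ≤ X) (hJ : IsJet (dgam R X) J) {q : ℝ × ℝ} (hq : q.1 ∈ Ioo R X) (he : e.R < q.1)
    (h : ∀ i, ‖vj R X a J (tX R X q.1) q.2 i - jS e j q i‖ ≤ t) :
    Fm.J2le (fun y => (vX R X a J y).re - Fm.vS e j y) t q := by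
  have hr := rd_real hX
  have hy : Icc R X ∈ 𝓝 q.1 := Icc_mem_nhds hq.1 hq.2
  have k : ∀ i, |Complex.reCLM (vk R X a J (tX R X) i q) - (jS e j q i).re| ≤ t := fun i =>
    le_trans (le_of_eq (congrArg abs (Complex.sub_re _ _).symm))
      ((Complex.abs_re_le_norm _).trans (h i))
  have c2 : ContDiffAt ℝ 2 (fun y => Complex.reCLM (vk R X a J (tX R X) 0 y)) q :=
    Complex.reCLM.contDiff.contDiffAt.comp q ((vX_c2 hX hJ).contDiffAt (nhds_strip hy))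
  refine j2_sub (u := fun y => Complex.reCLM (vk R X a J (tX R X) 0 y)) c2
    ((cd_vS e j he).of_le (ENat.LEInfty.out)) (k 0) ?_ ?_ ?_ ?_ ?_
  · rw [hJ.d1_0 hr hy]; exact k 1
  · rw [hJ.d2_0 hr hy]; exact k 3
  · rw [hJ.d11 hr hy]; exact k 2
  · rw [hJ.d12 hr hy]; exact k 4
  · rw [hJ.d22 hr hy]; exact k 5

end End

end Crest.Agent.N250.Rm

end
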