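import Crest.Agent.N250.R0.Stm
import Crest.Agent.N250.Fm.Defs
import Crest.Agent.N250.HJ.Main

/-!
# Row 250 (helper50): real solutions of the glued problem give `RealM`
-/

set_option autoImplicit false
open MeasureTheory Set Filter Topology
open scoped ContDiff
open Crest.GeometryTopology.MCF

noncomputable section

namespace Crest.Agent.N250.Rm

open Fm R0
open Crest.Agent.N250.B2 (aa ofR)

variable {S : Mv} {e : Ends S}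

theorem sol_mono {d : Fm.Dat e} {n : ℕ} {f : Fin n → E → ℝ} {a b X X₀ : ℝ} {ζ c : Fin n → ℝ}
    {A : ℝ} (h : d.Sol f a b X ζ c A) (hX : X₀ ≤ X) : d.Sol f a b X₀ ζ c A where
  sm := h.sm
  st := h.st
  smv j := (h.smv j).mono fun _ hq => ⟨hq.1, hq.2.trans_le hX⟩
  per := h.per
  elv j q h1 h2 := h.elv j q h1 (h2.trans_le hX)
  mt := h.mt
  el := h.el
  pair := h.pair
  act := by
    refine le_trans ?_ h.act
    gcongr with j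
    exact fun q hq => ⟨⟨hq.1.1, hq.1.2.trans_le hX⟩, hq.2⟩

theorem j2_mono {g : ℝ × ℝ → ℝ} {ε ε' : ℝ} {q : ℝ × ℝ} (h : J2le g ε q) (hε : ε ≤ ε') :
    J2le g ε' q :=
  ⟨h.h0.trans hε, h.h1.trans hε, h.h2.trans hε, h.h11.trans hε, h.h12.trans hε, h.h22.trans hε⟩

theorem small_mono {d : Fm.Dat e} {a b L L' ε ε' : ℝ} (h : d.Small a b L ε) (hL : L' ≤ L)
    (hε : ε ≤ ε') : d.Small a b L' ε' where
  c0 p h1 h2 := (h.c0 p h1 h2).trans (mul_le_mul_of_nonneg_right hε (by positivity))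
  c1 p h1 h2 i c := (h.c1 p h1 h2 i c).trans hε
  c2 p h1 h2 i k c := (h.c2 p h1 h2 i k c).trans hε
  rot j y := (h.rot j y).trans (mul_le_mul_of_nonneg_right hε (norm_nonneg _))
  en j q h1 h2 := j2_mono (h.en j q h1 (h2.trans_le hL)) hε

theorem out_pre {n : ℕ} {f : Fin n → E → ℝ} {ρ₀ X₀ : ℝ} {ζ c : Fin n → ℝ} {A : ℝ} {G : Mv}
    (h : Fm.Out S f ρ₀ X₀ ζ c A G) {τ : ℝ} (hτ : 0 ≤ τ) : Pre S f ρ₀ ζ τ G (X₀ / 2) c where
  reg := h.reg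
  st := h.st
  proper := h.proper
  reach := h.reach
  pair i := by rw [h.pair i]; simpa using hτ
  el x hx h1 := by rw [h.el x hx h1]; simpa using hτ

variable {ι κ : Type} [Fintype ι] [Fintype κ]

/-- the real points used by `RealM` -/
def Pt (δ X : ℝ) (x : ι ⊕ κ → ℝ) : Prop := δ⁻¹ < X ∧ ‖x‖ < δ ∧ ‖aa x‖ * X ^ 2 ≤ 1

theorem Pt.mono {δ δ' X : ℝ} {x : ι ⊕ κ → ℝ} (h : Pt δ X x) (h0 : 0 < δ) (h1 : δ ≤ δ') :
    Pt δ' X x :=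
  ⟨(inv_anti₀ h0 h1).trans_lt h.1, h.2.1.trans_le h1, h.2.2⟩

/-- the real points of the glued family are real solutions `d X x` with multipliers `c X x` -/
structure RealD (e : Ends S) {n : ℕ} (f : Fin n → E → ℝ) (σ : Fin n ≃ ι ⊕ κ)
    (FF : ℂ × (ι ⊕ κ → ℂ) → ℂ) (Z cc : ℂ × (ι ⊕ κ → ℂ) → ι ⊕ κ → ℂ) (a b : ℝ)
    (d : ℝ → (ι ⊕ κ → ℝ) → Fm.Dat e) (c : ℝ → (ι ⊕ κ → ℝ) → Fin n → ℝ) : Prop where
  Ra : e.R + 1 ≤ a
  ab : a < b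
  cont : ∀ i, Continuous (f i)
  supp : ∀ i, tsupport (f i) ⊆ Metric.ball 0 a
  sol : ∃ δ C c0 : ℝ, 0 < δ ∧ 0 < c0 ∧ ∀ (X : ℝ) (x : ι ⊕ κ → ℝ), Pt δ X x →
    (d X x).Sol f a b X (fun i => (Z (X, ofR x) (σ i)).re) (c X x)
      ((FF (X, ofR x)).re / (4 * Real.pi) + C * Real.exp (-c0 * X ^ 2)) ∧
    ‖cc (X, ofR x)‖ ≤ C * ‖c X x‖
  small : ∀ t : ℝ, 0 < t → ∃ θ δ : ℝ, 0 < θ ∧ 0 < δ ∧ ∀ (X : ℝ) (x : ι ⊕ κ → ℝ), Pt δ X x →
    (d X x).Small a b (θ * X) t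

theorem sol_le {d : Fm.Dat e} {n : ℕ} {f : Fin n → E → ℝ} {a b X : ℝ} {ζ c : Fin n → ℝ}
    {A A' : ℝ} (h : d.Sol f a b X ζ c A) (hA : A ≤ A') : d.Sol f a b X ζ c A' :=
  ⟨h.sm, h.st, h.smv, h.per, h.elv, h.mt, h.el, h.pair, h.act.trans (ENNReal.ofReal_le_ofReal hA)⟩

theorem realM_abs (hS : SolS) (hs : S.IsShr) {n : ℕ} {f : Fin n → E → ℝ} {σ : Fin n ≃ ι ⊕ κ}
    {FF : ℂ × (ι ⊕ κ → ℂ) → ℂ} {Z cc : ℂ × (ι ⊕ κ → ℂ) → ι ⊕ κ → ℂ} {a b : ℝ}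
    {d : ℝ → (ι ⊕ κ → ℝ) → Fm.Dat e} {c : ℝ → (ι ⊕ κ → ℝ) → Fin n → ℝ}
    (h : RealD e f σ FF Z cc a b d c) : RealM S f σ FF Z cc := by
  obtain ⟨ε₀, ρ₀, ε0, ρ0, H⟩ := hS S e hs a b h.Ra h.ab
  obtain ⟨δ1, C, c0, δ10, c00, h1⟩ := h.sol
  obtain ⟨θ, δ2, θ0, δ20, h2⟩ := h.small ε₀ ε0
  have m0 : 0 < min θ 1 := lt_min θ0 one_pos
  refine ⟨min θ 1 / 2, ρ₀, |C| + 1, c0, by positivity, ρ0, by positivity, c00, fun ε hε => ?_⟩
  obtain ⟨ε₁, L, ε10, H1⟩ := H ε hε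
  obtain ⟨θ', δ3, θ'0, δ30, h3⟩ := h.small ε₁ ε10
  set μ := min (min θ 1) θ' with hμ
  have μ0 : 0 < μ := lt_min m0 θ'0
  set δ4 := μ / (|L| + 1) with hδ4
  have δ40 : 0 < δ4 := by positivity
  set δ := min (min δ1 δ2) (min δ3 δ4) with hδ
  have δ0 : 0 < δ := lt_min (lt_min δ10 δ20) (lt_min δ30 δ40)
  refine ⟨δ, δ0, fun X hX x hx ha τ hτ => ?_⟩
  have P : Pt δ X x := ⟨hX, hx, ha⟩
  have X0 : 0 < X := (inv_pos.2 δ0).trans hX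
  have hL : L ≤ μ * X := by
    have := (P.mono δ0 ((min_le_right _ _).trans (min_le_right _ _))).1
    rw [hδ4, inv_div, div_lt_iff₀ μ0] at this
    linarith [le_abs_self L]
  obtain ⟨s1, s2⟩ := h1 X x (P.mono δ0 ((min_le_left _ _).trans (min_le_left _ _)))
  have s3 := h2 X x (P.mono δ0 ((min_le_left _ _).trans (min_le_right _ _)))
  have s4 := h3 X x (P.mono δ0 ((min_le_right _ _).trans (min_le_left _ _)))
  have hC : C ≤ |C| + 1 := by linarith [le_abs_self C]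
  obtain ⟨G, hG, hN⟩ := H1 n f (d X x) (min θ 1 * X) _ _ _ h.cont h.supp
    (hL.trans (mul_le_mul_of_nonneg_right (min_le_left _ _) X0.le))
    (sol_mono s1 (mul_le_of_le_one_left X0.le (min_le_right _ _)))
    (small_mono s3 (mul_le_mul_of_nonneg_right (min_le_left _ _) X0.le) le_rfl)
    (small_mono s4 (hL.trans (mul_le_mul_of_nonneg_right (min_le_right _ _) X0.le)) le_rfl)
  have e1 : min θ 1 / 2 * X = min θ 1 * X / 2 := by ring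
  refine ⟨G, c X x, e1 ▸ out_pre hG hτ.le, hN,
    s2.trans (mul_le_mul_of_nonneg_right hC (norm_nonneg _)), ?_⟩
  rw [e1]
  refine hG.en.trans (ENNReal.ofReal_le_ofReal ?_)
  gcongr

/-- the far term is exponentially small -/
theorem norm_S_le {N : ℕ} {X : ℝ} {V : ℂ} (hX : 1 ≤ X) (h : HJ.Adm N X V) :
    ‖HJ.S N X V‖ ≤ 700 * Real.exp (-X ^ 2 / 4) := by
  have x0 : 0 < X := by linarith
  have h1 : ‖HJ.EE X V‖ ≤ Real.exp (-X ^ 2 / 4) := by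
    rw [HJ.EE, Complex.norm_exp]
    refine Real.exp_le_exp.2 ?_
    have : (-(X : ℂ) ^ 2 / 4 - V / 2).re = -X ^ 2 / 4 - V.re / 2 := by
      simp [sq]
    rw [this]; linarith [h.hV]
  have h2 : ‖HJ.rr V‖ ≤ 3 := by
    rw [HJ.norm_rr]
    exact Real.sqrt_le_iff.2 ⟨by norm_num, by linarith [h.hV']⟩
  have h3 := HJ.norm_eN_le h.hw
  have h4 : ‖V / (X : ℂ) ^ 2‖ ≤ 4 := by
    rw [norm_div, norm_pow, Complex.norm_real, Real.norm_eq_abs, abs_of_pos x0]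
    exact (div_le_self (norm_nonneg _) (one_le_pow₀ hX)).trans h.hV'
  have hw : ‖HJ.ww X V‖ ≤ 1 / 7 := h.hw.trans (one_div_le_one_div_of_le (by norm_num)
    (by linarith [Nat.cast_nonneg (α := ℝ) N]))
  have h5 : ‖1 - HJ.eN N (HJ.ww X V) - V / (X : ℂ) ^ 2‖ ≤ 109 := by
    have := norm_sub_le (1 - HJ.eN N (HJ.ww X V)) (V / (X : ℂ) ^ 2)
    have := norm_sub_le 1 (HJ.eN N (HJ.ww X V))
    rw [norm_one] at this
    linarith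
  rw [HJ.S, norm_mul, norm_div, norm_mul, norm_mul, norm_neg, Complex.norm_two, Complex.norm_real,
    Real.norm_eq_abs, abs_of_pos x0]
  calc 2 * ‖HJ.EE X V‖ * ‖HJ.rr V‖ / X * ‖1 - HJ.eN N (HJ.ww X V) - V / (X : ℂ) ^ 2‖
      ≤ 2 * Real.exp (-X ^ 2 / 4) * 3 / 1 * 109 := by gcongr
    _ ≤ _ := by linarith [Real.exp_pos (-X ^ 2 / 4)]

end Crest.Agent.N250.Rm

end
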