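import Crest.Agent.N250.Rm.Sm
import Crest.Agent.N250.R0.Leaf
import Crest.Agent.N250.Se.Dic
import Crest.Agent.N250.Cf.J2
import Crest.Agent.N250.Xi.EndC
import Crest.Agent.N250.Gl.Fix2
import Crest.Agent.N250.Rl.Sol
import Crest.Agent.N250.Wt.All

/-!
# Row 250 (helper50): the real points of a glued family are small, `RealL` from the real solutions
-/

set_option autoImplicit false
open MeasureTheory Set Filter Topology
open scoped ContDiff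
open Crest.GeometryTopology.MCF

noncomputable section

namespace Crest.Agent.N250.Rm

open WS B1 R0
open Crest.Agent.N250.B2 (aa ofR)
open Crest.Agent.N250.Gi (KK)
open Crest.Agent.N250.Gl (yy)

variable {S : Mv} {T : St S} (F : Fa T) {σ : Scale T.G}

/-- the real data of a point -/
def dd (N : ℕ) (X : ℝ) (a : Fin T.p → ℂ) (ξ : F.Ξ σ) : Fm.Dat T.e where
  X := rX T.P (F.Y ξ)
  R j := Ro.RR fun l => (ξ.2.2 (j, l)).re
  v j y := (vX T.R X (a j) (T.U (F.zE N X a ξ j)) y).re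

theorem TT_small (T : St S) {t : ℝ} (ht : 0 < t) :
    ∃ ρ, 0 < ρ ∧ ∀ β : T.Bt, ‖β‖ < ρ → ‖T.TT β‖ < t := by
  have c : Continuous T.TT := continuous_pi fun j =>
    (Ro.diff_TT (Cj.fQ (T.e.Q j))).continuous.comp (f := fun β : T.Bt => fun i => β (j, i))
      (by fun_prop)
  have z : T.TT 0 = 0 := funext fun j => Ro.TT_zero (Cj.fQ (T.e.Q j))
  obtain ⟨ρ, h0, h⟩ := Metric.continuousAt_iff.1 (c.continuousAt (x := 0)) t ht
  exact ⟨ρ, h0, fun β hβ => by simpa [z] using h (x := β) (by simpa using hβ)⟩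

theorem idt (hT : T.Good) (j : Fin T.p) :
    Ce.Idt T.ℓ T.R T.k.K1 T.k.ε T.U (T.b0 j) (S9.jS T.e j) := fun t ht => by
  obtain ⟨δ, h0, h⟩ := hT.idn j t ht
  obtain ⟨X0, h⟩ := eventually_atTop.1 h
  exact ⟨δ, X0, h0, h⟩

theorem rot_le {κ : Type} [Fintype κ] (β : κ × Fin 2 → ℂ) {t : ℝ} (h : ‖β‖ ≤ t / 2) (j : κ) (y : E) :
    ‖Ro.RR (fun l => (β (j, l)).re) y - y‖ ≤ t * ‖y‖ := by
  refine (Ro.RR_sub _ y).trans (mul_le_mul_of_nonneg_right ?_ (norm_nonneg _))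
  have : ‖fun l => (β (j, l)).re‖ ≤ ‖β‖ :=
    (pi_norm_le_iff_of_nonneg (norm_nonneg _)).2 fun l =>
      (Complex.abs_re_le_norm _).trans (norm_le_pi_norm β _)
  linarith

theorem small_pt (hT : T.Good) (Je : σ.Jets F.φ) {t : ℝ} (ht : 0 < t) :
    ∃ θ ρ X0 : ℝ, 0 < θ ∧ 0 < ρ ∧ ∀ (N : ℕ) (X : ℝ) (a : Fin T.p → ℂ) (ξ : F.Ξ σ), X0 ≤ X →
      ‖ξ‖ < ρ → ‖F.dat ξ‖ < ρ → (∀ j, F.zE N X a ξ j ∈ T.Dm) →
      (∀ j, ‖Gi.hN N X (a j)‖ ≤ 6015 / (X ^ 3 * ‖et (a j) X‖)) →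
      (dd F N X a ξ).Small (T.R + 1 / 10) (T.R + 1 / 3) (θ * X) t := by
  obtain ⟨c, CD, C, fm⟩ := hT.fm
  choose θ rb X1 θ0 θ1 rb0 H using fun j => Cf.close_j2 fm T.eR_lt_R.le (idt hT j) ht
  obtain ⟨θm, θm0, hθ⟩ : ∃ m : ℝ, 0 < m ∧ ∀ j, m ≤ θ j ∧ m ≤ rb j := by
    have : ∀ᶠ m : ℝ in 𝓝[>] 0, ∀ j, m ≤ θ j ∧ m ≤ rb j := eventually_all.2 fun j =>
      nhdsWithin_le_nhds ((eventually_le_nhds (θ0 j)).and (eventually_le_nhds (rb0 j)))
    obtain ⟨m, h1, h2⟩ := (this.and self_mem_nhdsWithin).exists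
    exact ⟨m, h2, h1⟩
  obtain ⟨X0, hX0⟩ : ∃ X0 : ℝ, ∀ j, X1 j ≤ X0 := (Set.finite_range X1).bddAbove.imp
    fun _ h j => h ⟨j, rfl⟩
  obtain ⟨C1, c1, h1⟩ := sz_Xh F.good
  obtain ⟨C2, c2, h2⟩ := sz_wG Je
  set s := min 1 (t / (3 * C1)) with hs
  have s0 : 0 < s := lt_min one_pos (by positivity)
  have s1 : 3 * (C1 * s) ≤ t := by
    have := min_le_right 1 (t / (3 * C1))
    rw [← hs, le_div_iff₀ (by positivity)] at this
    linarith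
  obtain ⟨ρ1, ρ10, h3⟩ := TT_small T s0
  refine ⟨θm, min (min θm ρ1) (min (s / C2) (t / 2)), max X0 0, θm0,
    lt_min (lt_min θm0 ρ10) (lt_min (by positivity) (by positivity)),
    fun N X a ξ hX hξ hd hz hh => ?_⟩
  simp only [lt_min_iff] at hξ hd
  have b1 : ‖ξ.2.2‖ ≤ ‖ξ‖ := (norm_snd_le ξ.2).trans (norm_snd_le ξ)
  have b2 : ‖(ξ.1, ξ.2.1)‖ ≤ ‖ξ‖ := norm_prod_le_iff.2
    ⟨norm_fst_le ξ, (norm_fst_le ξ.2).trans (norm_snd_le ξ)⟩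
  have b3 : C2 * ‖(ξ.1, ξ.2.1)‖ ≤ s := by
    have := b2.trans hξ.2.1.le
    rwa [le_div_iff₀ c2, mul_comm] at this
  have k : ∀ q (hq : q ∈ S.M), q ∈ Fm.Core T.e (T.R + 1 / 3) → ∀ c,
      Sz (F.Y ξ c - T.G.SC.x c) (C1 * s) (⟨q.1, mem_sl T.P hq⟩ : S.sl 0) := fun q hq hc => by
    have hζ := zeta_core (P := T.P) (by rw [T.ha']; linarith) hq hc
    exact h1 _ _ _ _ hζ (min_le_left _ _) (h3 _ (b1.trans_lt hξ.1.2)).le ((h2 _ _ hζ).mono b3)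
  have cs : 0 ≤ C1 * s := by positivity
  refine ⟨fun q hq hc => (core0 hq (k q hq hc)).trans (mul_le_mul_of_nonneg_right s1 (by positivity)),
    fun q hq hc i c => (core1 hq (k q hq hc) i c).trans (by linarith),
    fun q hq hc i l c => (core2 hq (k q hq hc) i l c).trans (by linarith), fun j y => ?_,
    fun j q q1 q2 => ?_⟩
  · exact rot_le ξ.2.2 (b1.trans hξ.2.2.le) j y
  · refine H j X (a j) _ _ ((hX0 j).trans ((le_max_left _ _).trans hX)) (hz j) (hh j) ?_ q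
      (by linarith) (q2.trans_le (mul_le_mul_of_nonneg_right (hθ j).1 ((le_max_right _ _).trans hX)))
    rw [add_sub_cancel_left]
    exact (norm_le_pi_norm _ j).trans (hd.1.1.le.trans (hθ j).2)

theorem norm_ofR_le {ι : Type} [Fintype ι] (x : ι → ℝ) : ‖ofR x‖ ≤ ‖x‖ :=
  (pi_norm_le_iff_of_nonneg (norm_nonneg _)).2 fun i =>
    (Complex.norm_real _).trans_le (norm_le_pi_norm x i)

theorem pt_dom {ι κ : Type} [Fintype ι] [Fintype κ] {r : ℝ} (hr : 0 < r) (K X1 : ℝ) :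
    ∃ δ, 0 < δ ∧ ∀ (X : ℝ) (x : ι ⊕ κ → ℝ), Pt δ X x → X1 < X ∧ ofR x ∈ DomA r K X := by
  refine ⟨min r (|X1| + 4 * |K| + 1)⁻¹, lt_min hr (by positivity), fun X x h => ?_⟩
  have h1 := (h.mono (lt_min hr (by positivity)) (min_le_right _ _)).1
  rw [inv_inv] at h1
  have a1 := abs_nonneg X1
  have a2 := abs_nonneg K
  refine ⟨by linarith [le_abs_self X1], fun i => ?_, fun j => ?_⟩
  · exact ((norm_le_pi_norm (ofR x) _).trans (norm_ofR_le x)).trans_lt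
      (h.2.1.trans_le (min_le_left _ _))
  · refine Xi.adm_small (by linarith) (by nlinarith [le_abs_self K]) ?_
    rw [le_div_iff₀ (by nlinarith)]
    refine le_trans (mul_le_mul_of_nonneg_right ?_ (sq_nonneg X)) h.2.2
    exact (Complex.norm_real _).trans_le (norm_le_pi_norm (aa x) j)

variable {F} {N : ℕ} {ξ : ℂ × (F.I → ℂ) → F.Ξ σ} {ρ r X1 θ : ℝ}

theorem small_gf (hT : T.Good) (Je : σ.Jets F.φ) (h : F.Gf N ξ ρ r X1 θ) {t : ℝ} (ht : 0 < t) :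
    ∃ θ' δ : ℝ, 0 < θ' ∧ 0 < δ ∧ ∀ (X : ℝ) (x : F.I → ℝ), Pt δ X x →
      (dd F N X (aa (ofR x)) (ξ (X, ofR x))).Small (T.R + 1 / 10) (T.R + 1 / 3) (θ' * X) t := by
  obtain ⟨θ', ρ', X0, a1, a2, H⟩ := small_pt F hT Je ht
  obtain ⟨δ1, b1, h1⟩ := h.base ρ' a2
  obtain ⟨δ2, b2, h2⟩ := pt_dom (ι := Fin F.n) (κ := Fin T.p) h.r_pos (KK N - 1 / 4) (max X1 X0)
  refine ⟨θ', min δ1 δ2, a1, lt_min b1 b2, fun X x p => ?_⟩
  have p1 := p.mono (lt_min b1 b2) (min_le_left _ _)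
  obtain ⟨x1, x2⟩ := h2 X x (p.mono (lt_min b1 b2) (min_le_right _ _))
  have x3 : X1 < X := (le_max_left _ _).trans_lt x1
  obtain ⟨s1, s2⟩ := h1 X p1.1 x3 _ x2
    (((Gl.norm_yy _).trans (norm_ofR_le x)).trans_lt p1.2.1)
  have m := Gl.real_mem (by linarith [h.X1_ge]) h.θ_pos x3 x2
  refine H N X _ _ ((le_max_right _ _).trans x1.le) s1 s2 (h.sv _ m).dom fun j => ?_
  have B := (h.en j).big
  have k := Xi.EC.KK_ge N
  exact Xi.EC.hN_le B.N0 (Gi.adm_mono (by linarith) (x2.2 j)) (by linarith [h.X1_ge])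
    (by linarith [B.KX x3.le])

variable (F σ)

/-- the real points of a glued family are real solutions -/
def SolD (g : F.I → E → ℝ) : Prop := F.AllG σ fun N ξ r X1 _ =>
  ∃ (c : ℝ → (F.I → ℝ) → Fin (F.n + T.p) → ℝ) (C c0 : ℝ), 0 < c0 ∧
    ∀ X : ℝ, X1 < X → ∀ x : F.I → ℝ, ofR x ∈ DomA r (KK N - 1 / 4) X →
    (dd F N X (aa (ofR x)) (ξ (X, ofR x))).Sol (F.fA g) (T.R + 1 / 10) (T.R + 1 / 3) X
      (fun i => (F.II (ξ (X, ofR x)) (finSumFinEquiv.symm i)).re) (c X x)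
      ((Gi.FFo N (F.Aq N ξ) (X, ofR x)).re / (4 * Real.pi) + C * Real.exp (-c0 * X ^ 2)) ∧
    ‖F.c (ξ (X, ofR x))‖ ≤ C * ‖c X x‖

/-- real solutions (55) -/
def SolL : Prop := ∀ (S : Mv) (T : St S), T.Good → ∀ (F : Fa T) δ g, F.Am δ g →
  Sg fun σ => F.PhiD σ → SolD F σ g

theorem realD_of (hT : T.Good) {δ : ℝ} {g : F.I → E → ℝ} (hA : F.Am δ g) (Je : σ.Jets F.φ)
    (h : SolD F σ g) : F.RealD σ g := by
  obtain ⟨ρ, ρ0, h⟩ := h
  refine ⟨ρ, ρ0, fun N ξ r X1 θ hG => ?_⟩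
  obtain ⟨c, C, c0, c00, h⟩ := h N ξ r X1 θ hG
  obtain ⟨δ2, b2, h2⟩ := pt_dom (ι := Fin F.n) (κ := Fin T.p) hG.r_pos (KK N - 1 / 4) X1
  refine realM_abs (e := T.e) Rl.solS_holds T.P.shr
    (d := fun X x => dd F N X (aa (ofR x)) (ξ (X, ofR x))) (c := c)
    ⟨by linarith [T.hR], by linarith, fun i => (hA.cons.sm i).continuous, fun i y hy => ?_,
      ⟨δ2, C, c0, b2, c00, fun X x p => h X (h2 X x p).1 x (h2 X x p).2⟩,
      fun t ht => small_gf hT Je hG ht⟩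
  have := (hA.supp _ y (tsupport_mul_subset_right hy)).1
  exact mem_ball_zero_iff.2 (by linarith)

theorem realL_of (h : SolL) : RealL := fun S T hT F δ g hA => by
  have j : Sg fun σ : Scale T.G => Nonempty (σ.Jets F.φ) := F.grn.nonempty_jets T.G.mainS
  exact ((h S T hT F δ g hA).and j).mono fun σ k hP => realD_of F σ hT hA k.2.some (k.1 hP)

end Crest.Agent.N250.Rm

end
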